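import Vale.Agent.Lib.P047.Conical
import Vale.Agent.Lib.P047.Sharp

namespace Vale.Agent.Results.P047.CertificateBounds

open Vale.Agent.Lib.P047

/-- Three bounds on the level-one Fourier sum of a Boolean function in terms of
certificate-type complexity measures that dominate the degree. -/
theorem result :
    (∀ (n k : ℕ) (f : (Fin n → Bool) → ℝ), (∀ x, f x = 1 ∨ f x = -1) →
      ∀ (σ : ℝ), (σ = 1 ∨ σ = -1) →
      ∀ (P : Finset (Fin n → Option Bool)) (c : (Fin n → Option Bool) → ℝ),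
      (∀ ρ ∈ P, 0 ≤ c ρ) → (∀ ρ ∈ P, codim ρ ≤ k) →
      (∀ x, (1 + σ * f x) / 2 = ∑ ρ ∈ P, if InCube ρ x then c ρ else 0) →
      |levelOne f| ≤ 2 * Real.sqrt (k / Real.exp 1))
    ∧
    (∀ (n k : ℕ) (f : (Fin n → Bool) → ℝ), (∀ x, f x = 1 ∨ f x = -1) →
      ∀ (P : Finset (Fin n → Option Bool)),
      (∀ x, ∃! ρ, ρ ∈ P ∧ InCube ρ x) → (∀ ρ ∈ P, codim ρ ≤ k) →
      (∀ ρ ∈ P, ∀ x y, InCube ρ x → InCube ρ y → f x = f y) →
      levelOne f ≤ B k)
    ∧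
    (∀ (n : ℕ) (f : (Fin n → Bool) → ℝ), (∀ x, f x = 1 ∨ f x = -1) →
      ∀ (P : Finset (Fin n → Option Bool)),
      (∀ x, ∃! ρ, ρ ∈ P ∧ InCube ρ x) →
      (∀ ρ ∈ P, ∀ x y, InCube ρ x → InCube ρ y → f x = f y) →
      levelOne f ≤ Real.sqrt (∑ ρ ∈ P, (1 / 2 : ℝ) ^ codim ρ * codim ρ)) := by
  have habs : ∀ (n : ℕ) (f : (Fin n → Bool) → ℝ), (∀ x, f x = 1 ∨ f x = -1) → ∀ x, |f x| ≤ 1 := by
    intro n f hf x
    rcases hf x with h | h <;> rw [h] <;> simp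
  refine ⟨?_, ?_, ?_⟩
  · intro n k f hf σ hσ P c hc hk hrep
    exact conical_bound_signed f (habs n f hf) σ hσ P c hc hk hrep
  · intro n k f hf P hP hk hconst
    exact partition_sharp_bound P hP hk f (habs n f hf) hconst
  · intro n f hf P hP hconst
    exact partition_avg_bound P hP f (habs n f hf) hconst

end Vale.Agent.Results.P047.CertificateBounds
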