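import Vale.Agent.Results.P047.A_Structure
import Vale.Agent.Results.P047.CertificateBounds

namespace Vale.Agent.Results.P047.A_Combined

open Vale.Agent.Lib.P047 Filter Topology

/-- Structure of the extremal function `M d` (first nine parts) together with three bounds on the
level-one Fourier sum in terms of certificate-type complexity measures (last three parts). -/
theorem result :
    ((∀ d, IsLUB (Mset d) (M d)) ∧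
    (∃ α : ℝ, 1 / 2 ≤ α ∧ α ≤ 1 ∧
      Tendsto (fun d : ℕ => Real.log (M d) / Real.log d) atTop (𝓝 α) ∧
      (∀ d, Odd d → M d ≤ (d : ℝ) ^ α) ∧
      (∀ d : ℕ, M d ≤ ((d : ℝ) + 1) ^ α) ∧
      (∀ β : ℝ, (∃ C : ℝ, ∀ d : ℕ, 1 ≤ d → M d ≤ C * (d : ℝ) ^ β) ↔ α ≤ β)) ∧
    ((∃ C : ℝ, ∀ d : ℕ, 1 ≤ d → M d ≤ C * Real.sqrt d) ↔ ∀ d, Odd d → M d ≤ Real.sqrt d) ∧
    (∀ a b, Odd b → M a * M b ≤ M (a * b)) ∧
    (∀ (n d : ℕ) (f : (Fin n → Bool) → ℝ), Odd d → (∀ x, f x = 1 ∨ f x = -1) →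
      (∀ S : Finset (Fin n), d < S.card → fourier f S = 0) →
      levelOne f + |fourier f ∅| ≤ M d) ∧
    (∀ d, 4 ≤ d → B d < M d) ∧
    (∀ k : ℕ, (17 / 8 : ℝ) ^ k ≤ M (5 ^ k)) ∧
    M 4 = 7 / 4 ∧
    (∀ d : ℕ, M d ≤ Real.sqrt 3 / 2 * d + 4 / 5))
    ∧
    ((∀ (n k : ℕ) (f : (Fin n → Bool) → ℝ), (∀ x, f x = 1 ∨ f x = -1) →
      ∀ (σ : ℝ), (σ = 1 ∨ σ = -1) →
      ∀ (P : Finset (Fin n → Option Bool)) (c : (Fin n → Option Bool) → ℝ),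
      (∀ ρ ∈ P, 0 ≤ c ρ) → (∀ ρ ∈ P, codim ρ ≤ k) →
      (∀ x, (1 + σ * f x) / 2 = ∑ ρ ∈ P, if InCube ρ x then c ρ else 0) →
      |levelOne f| ≤ 2 * Real.sqrt (k / Real.exp 1))
    ∧
    (∀ (n k : ℕ) (f : (Fin n → Bool) → ℝ), (∀ x, f x = 1 ∨ f x = -1) →
      ∀ (P : Finset (Fin n → Option Bool)),
      (∀ x, ∃! ρ, ρ ∈ P ∧ InCube ρ x) → (∀ ρ ∈ P, codim ρ ≤ k) →
      (∀ ρ ∈ P, ∀ x y, InCube ρ x → InCube ρ y → f x = f y) →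
      levelOne f ≤ B k)
    ∧
    (∀ (n : ℕ) (f : (Fin n → Bool) → ℝ), (∀ x, f x = 1 ∨ f x = -1) →
      ∀ (P : Finset (Fin n → Option Bool)),
      (∀ x, ∃! ρ, ρ ∈ P ∧ InCube ρ x) →
      (∀ ρ ∈ P, ∀ x y, InCube ρ x → InCube ρ y → f x = f y) →
      levelOne f ≤ Real.sqrt (∑ ρ ∈ P, (1 / 2 : ℝ) ^ codim ρ * codim ρ))) :=
  ⟨Vale.Agent.Results.P047.A_Structure.result, Vale.Agent.Results.P047.CertificateBounds.result⟩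

end Vale.Agent.Results.P047.A_Combined
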