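import Vale.Agent.Lib.P047.DegFour
import Vale.Agent.Lib.P047.Seven

namespace Vale.Agent.Results.P047.A_DegreeFourExact

open Vale.Agent.Lib.P047

/-- `M(4) = 7/4`: every Boolean function of Fourier degree at most four, on any number of
variables, has level-one Fourier sum at most `7/4`, and some Boolean function of degree at most
four on seven variables attains `7/4`. -/
theorem result :
    (∀ (n : ℕ) (f : (Fin n → Bool) → ℝ), (∀ x, f x = 1 ∨ f x = -1) →
      (∀ S : Finset (Fin n), 4 < S.card → fourier f S = 0) →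
      levelOne f ≤ 7 / 4)
    ∧
    (∃ f : (Fin 7 → Bool) → ℝ, (∀ x, f x = 1 ∨ f x = -1) ∧
      (∀ S : Finset (Fin 7), 4 < S.card → fourier f S = 0) ∧
      levelOne f = 7 / 4) :=
  ⟨fun _ f hf hdeg => levelOne_le_of_deg_four f hf hdeg,
    ⟨f7, f7_bool, f7_deg, f7_levelOne⟩⟩

end Vale.Agent.Results.P047.A_DegreeFourExact
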