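import Vale.Agent.Lib.P047.Glue.Beat
import Vale.Agent.Lib.P047.Tens.MMul2

namespace Vale.Agent.Results.P047.A_Structure

open Vale.Agent.Lib.P047 Filter Topology

/-- Structure of the extremal function `M d`, the supremum of the level-one Fourier sums of
Boolean functions of degree at most `d`. -/
theorem result :
    (∀ d, IsLUB (Mset d) (M d)) ∧
    (∃ α : ℝ, 1 / 2 ≤ α ∧ α ≤ 1 ∧
      Tendsto (fun d : ℕ => Real.log (M d) / Real.log d) atTop (𝓝 α) ∧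
      (∀ d, Odd d → M d ≤ (d : ℝ) ^ α) ∧
      (∀ d : ℕ, M d ≤ ((d : ℝ) + 1) ^ α) ∧
      (∀ β : ℝ, (∃ C : ℝ, ∀ d : ℕ, 1 ≤ d → M d ≤ C * (d : ℝ) ^ β) ↔ α ≤ β)) ∧
    ((∃ C : ℝ, ∀ d : ℕ, 1 ≤ d → M d ≤ C * Real.sqrt d) ↔ ∀ d, Odd d → M d ≤ Real.sqrt d) ∧
    (∀ a b, Odd b → M a * M b ≤ M (a * b)) ∧
    (∀ (n d : ℕ) (f : (Fin n → Bool) → ℝ), Odd d → (∀ x, f x = 1 ∨ f x = -1) →
      (∀ S : Finset (Fin n), d < S.card → fourier f S = 0) →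
      levelOne f + |fourier f ∅| ≤ M d) ∧
    (∀ d, 4 ≤ d → B d < M d) ∧
    (∀ k : ℕ, (17 / 8 : ℝ) ^ k ≤ M (5 ^ k)) ∧
    M 4 = 7 / 4 ∧
    (∀ d : ℕ, M d ≤ Real.sqrt 3 / 2 * d + 4 / 5) := by
  refine ⟨M_isLUB, ?_, weak_iff_exact, M_mul_right_odd, ?_, B_lt_M, pow_le_M, M_four, M_le_lin⟩
  · obtain ⟨α, h1, h2, h3, h4, h5, _, h7⟩ := growth
    exact ⟨α, h1, h2, h3, h4, h5, h7⟩
  · intro n d f hd hf hdeg
    exact add_abs_mean_le_M hd f hf hdeg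

end Vale.Agent.Results.P047.A_Structure
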