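import Vale.Agent.Lib.P047.LinMain

namespace Vale.Agent.Results.P047.LinearBound

open Vale.Agent.Lib.P047

/-- Every Boolean function of degree at most `d` has level-one Fourier sum at most
`(√3/2) d + 4/5`. -/
theorem result :
    ∀ (n d : ℕ) (f : (Fin n → Bool) → ℝ), (∀ x, f x = 1 ∨ f x = -1) →
      (∀ S : Finset (Fin n), d < S.card → fourier f S = 0) →
      levelOne f ≤ Real.sqrt 3 / 2 * d + 4 / 5 :=
  fun _ d f hf hdeg => Lin.linear_bound f hf d hdeg

end Vale.Agent.Results.P047.LinearBound
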